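import Vale.Agent.P028.MathlibUsed
import Vale.Agent.P028.FQ.LkTerm
import Vale.Agent.P028.R26.AliveD
attribute [-instance] ProperSMul.toContinuousSMul IsTopologicalTorsor.toContinuousSMul IdemSemiring.toCanonicallyOrderedAdd IdemSemiring.toMulLeftMono IdemSemiring.toMulRightMono AddQuantale.instAddLeftMono AddQuantale.instAddRightMono Quantale.instMulLeftMono Quantale.instMulRightMono FiniteDimensional.rclike_to_real IsScalarTower.complexToReal FiniteDimensional.complexToReal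

/-!
# Leaks with dilution: the term of an aligned triple in terms of the two rough parts

The version of `FQ/LkTerm` with the leak factors of the omitted primes.
-/

namespace Vale.P028.SK

open Finset CF RN

variable {g : Cfg}

/-- the diluted kernel: leak factors, harm of the primes dividing the cofactors, harm of the
common primes -/
theorem KD_le4 {u v : ℕ} {P Q : Finset ℕ} (hP : ∀ p ∈ P, p.Prime) (hQ : ∀ p ∈ Q, p.Prime)
    (c c' : ℕ → ℤ) {δ δ' : ℕ → ℝ} (h1 : ∀ p, 0 ≤ δ p ∧ δ p ≤ 1) (h2 : ∀ p, 0 ≤ δ' p ∧ δ' p ≤ 1)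
    (k : ℤ) :
    KD u v P Q c c' δ δ' k ≤
      ((∏ p ∈ P.filter (fun p => p ∣ u ∧ (p : ℤ) ∣ k - c p * (v : ℤ)), δ p) *
        ∏ p ∈ Q.filter (fun p => p ∣ v ∧ (p : ℤ) ∣ k + c' p * (u : ℤ)), δ' p) *
      ((∏ p ∈ P.filter (fun p => p ∣ u), (1 - 1 / (p : ℝ))⁻¹) *
      (∏ p ∈ Q.filter (fun p => p ∣ v), (1 - 1 / (p : ℝ))⁻¹) *
      ∏ p ∈ P ∩ Q, (1 - 1 / (p : ℝ))⁻¹) := by
  classical
  unfold KD
  have a1 : ∏ p ∈ P, ((1 - δ p) * aK u v c k p + δ p) ≤
      (∏ p ∈ P.filter (fun p => p ∣ u ∧ (p : ℤ) ∣ k - c p * (v : ℤ)), δ p) *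
      ∏ p ∈ P.filter (fun p => p ∣ u), (1 - 1 / (p : ℝ))⁻¹ := by
    rw [prod_filter, prod_filter, ← prod_mul_distrib]
    refine prod_le_prod (fun p hp => ?_) fun p hp => ?_
    · have := aK_nonneg (u := u) (v := v) (c := c) (k := k) (hP p hp)
      have h3 := h1 p
      nlinarith
    · have h3 := h1 p
      have h4 := one_le_inv_factor (hP p hp)
      unfold aK
      by_cases hu : p ∣ u
      · by_cases hk : (p : ℤ) ∣ k - c p * (v : ℤ)
        · rw [if_pos hu, if_pos hk, if_pos ⟨hu, hk⟩, if_pos hu]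
          nlinarith
        · rw [if_pos hu, if_neg hk, if_neg (fun h => hk h.2), if_pos hu]
          nlinarith
      · rw [if_neg hu, if_neg (fun h => hu h.1), if_neg hu]
        linarith
  have a2 : ∏ p ∈ Q, ((1 - δ' p) * bK u v c' k p + δ' p) ≤
      (∏ p ∈ Q.filter (fun p => p ∣ v ∧ (p : ℤ) ∣ k + c' p * (u : ℤ)), δ' p) *
      ∏ p ∈ Q.filter (fun p => p ∣ v), (1 - 1 / (p : ℝ))⁻¹ := by
    rw [prod_filter, prod_filter, ← prod_mul_distrib]
    refine prod_le_prod (fun p hp => ?_) fun p hp => ?_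
    · have := bK_nonneg (u := u) (v := v) (c := c') (k := k) (hQ p hp)
      have h3 := h2 p
      nlinarith
    · have h3 := h2 p
      have h4 := one_le_inv_factor (hQ p hp)
      unfold bK
      by_cases hv : p ∣ v
      · by_cases hk : (p : ℤ) ∣ k + c' p * (u : ℤ)
        · rw [if_pos hv, if_pos hk, if_pos ⟨hv, hk⟩, if_pos hv]
          nlinarith
        · rw [if_pos hv, if_neg hk, if_neg (fun h => hk h.2), if_pos hv]
          nlinarith
      · rw [if_neg hv, if_neg (fun h => hv h.1), if_neg hv]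
        linarith
  have a3 : ∏ p ∈ P ∩ Q, (1 + (1 - δ p) * (1 - δ' p) * (hK u v c c' k p - 1)) ≤
      ∏ p ∈ P ∩ Q, (1 - 1 / (p : ℝ))⁻¹ := by
    refine prod_le_prod (fun p hp => ?_) fun p hp => ?_
    · have h4 := h1 p
      have h5 := h2 p
      have h6 := one_le_inv_factor (hP p (mem_inter.1 hp).1)
      have h7 : 0 ≤ (1 - δ p) * (1 - δ' p) := mul_nonneg (by linarith) (by linarith)
      unfold hK
      split_ifs
      · nlinarith
      · simp
    · have h4 := h1 p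
      have h5 := h2 p
      have h6 := one_le_inv_factor (hP p (mem_inter.1 hp).1)
      have h7 : 0 ≤ (1 - δ p) * (1 - δ' p) := mul_nonneg (by linarith) (by linarith)
      have h8 : (1 - δ p) * (1 - δ' p) ≤ 1 := by nlinarith
      unfold hK
      split_ifs
      · nlinarith
      · simp only [sub_self, mul_zero, add_zero]
        exact h6
  have b1 : 0 ≤ ∏ p ∈ Q, ((1 - δ' p) * bK u v c' k p + δ' p) := by
    refine prod_nonneg fun p hp => ?_
    have := bK_nonneg (u := u) (v := v) (c := c') (k := k) (hQ p hp)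
    have h3 := h2 p
    nlinarith
  have b2 : 0 ≤ ∏ p ∈ P ∩ Q, (1 + (1 - δ p) * (1 - δ' p) * (hK u v c c' k p - 1)) := by
    refine prod_nonneg fun p hp => ?_
    have h4 := h1 p
    have h5 := h2 p
    have h6 := one_le_inv_factor (hP p (mem_inter.1 hp).1)
    have h7 : 0 ≤ (1 - δ p) * (1 - δ' p) := mul_nonneg (by linarith) (by linarith)
    unfold hK
    split_ifs
    · nlinarith
    · simp
  have c1 : 1 ≤ ∏ p ∈ P.filter (fun p => p ∣ u), (1 - 1 / (p : ℝ))⁻¹ :=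
    prod_one_le fun p hp => one_le_inv_factor (hP p (mem_filter.1 hp).1)
  have c2 : 1 ≤ ∏ p ∈ Q.filter (fun p => p ∣ v), (1 - 1 / (p : ℝ))⁻¹ :=
    prod_one_le fun p hp => one_le_inv_factor (hQ p (mem_filter.1 hp).1)
  have c3 : 0 ≤ ∏ p ∈ P.filter (fun p => p ∣ u ∧ (p : ℤ) ∣ k - c p * (v : ℤ)), δ p :=
    prod_nonneg fun p _ => (h1 p).1
  have c4 : 0 ≤ ∏ p ∈ Q.filter (fun p => p ∣ v ∧ (p : ℤ) ∣ k + c' p * (u : ℤ)), δ' p :=
    prod_nonneg fun p _ => (h2 p).1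
  have h := mul_le_mul (mul_le_mul a1 a2 b1 (mul_nonneg c3 (by linarith))) a3 b2
    (mul_nonneg (mul_nonneg c3 (by linarith)) (mul_nonneg c4 (by linarith)))
  refine h.trans (le_of_eq (by ring))

/-- **The kernel of an aligned triple of stage `i` in terms of the stage `s > i`, with the leak
factors.** -/
theorem Kd_leakD : ∃ C > 0, ∀ g : Cfg, Real.exp 1 ≤ g.K.P.ρ0 ^ (-g.K.P.c0) → JsOK g.K g.Js →
    g.Js ≤ g.X → g.V ⊆ Icc 1 (N g) → ∀ δ, Om δ → ∀ i s q r n, i ≤ s → q ∈ V1 g → r ∈ V1 g →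
    n ∈ Sh g q r → TAj g i q r n → Dl g q r ≤ z g i →
    Kd g δ q r n ≤ C * (1 + Real.log (z g s)) ^ 3 *
      (NT.Gn (rgh (z g s) (rcof (z g i) (N g) (kc g q) q r)) *
        NT.Gn (rgh (z g s) (rcof (z g i) (N g) (kc g q) r q))) *
      Real.sqrt ((ro (z g i) q * ro (z g i) r) / (ro (z g s) q * ro (z g s) r)) *
      LK g δ (z g i) q r n := by
  classical
  obtain ⟨C₀, hC₀, hM⟩ := small_primes_le
  refine ⟨Real.exp 353 * C₀ ^ 3, by positivity, ?_⟩
  intro g hρ hJ hX hV δ hδ i s q r n his hq hr hn hT hD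
  have hqV : q ∈ g.V := (mem_filter.1 (mem_filter.1 hq).1).1
  have hrV : r ∈ g.V := (mem_filter.1 (mem_filter.1 hr).1).1
  have hq1 := mem_Icc.1 (hV hqV)
  have hr1 := mem_Icc.1 (hV hrV)
  have hz : zs g ≤ z g i := zs_le_z hJ hX i
  obtain ⟨e1, e2, -, e4, e5⟩ := clean_cofac hV hz hqV hrV hT.2.2.1
  set a := rcof (z g i) (N g) (kc g q) q r with ha
  set b := rcof (z g i) (N g) (kc g q) r q with hb
  have h1 := Kd_TA_le_V1 hρ hJ hX hV hδ hq hr hn hT hD
  set P := (Pm g q).filter (fun p => p ≤ z g i) with hP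
  set Q := (Pm g r).filter (fun p => p ≤ z g i) with hQ
  have hPp : ∀ p ∈ P, p.Prime ∧ p ∣ q ∧ p ≤ z g i := fun p hp =>
    ⟨(Pm_prime g (mem_filter.1 hp).1).1, (Pm_prime g (mem_filter.1 hp).1).2, (mem_filter.1 hp).2⟩
  have hQp : ∀ p ∈ Q, p.Prime ∧ p ∣ r ∧ p ≤ z g i := fun p hp =>
    ⟨(Pm_prime g (mem_filter.1 hp).1).1, (Pm_prime g (mem_filter.1 hp).1).2, (mem_filter.1 hp).2⟩
  have h2 := KD_le4 (u := cofac q r) (v := cofac r q) (P := P) (Q := Q)
    (fun p hp => (hPp p hp).1) (fun p hp => (hQp p hp).1) (c g q) (c g r) (hδ q) (hδ r) n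
  have hLK : (∏ p ∈ P.filter (fun p => p ∣ cofac q r ∧
      (p : ℤ) ∣ n - c g q p * (cofac r q : ℤ)), δ q p) *
      ∏ p ∈ Q.filter (fun p => p ∣ cofac r q ∧
      (p : ℤ) ∣ n + c g r p * (cofac q r : ℤ)), δ r p = LK g δ (z g i) q r n := by
    unfold LK
    rw [hP, hQ, filter_filter, filter_filter]
  rw [hLK] at h2
  have hL0 : 0 ≤ LK g δ (z g i) q r n := LK_nonneg (g := g) hδ (z g i) q r n
  have hz1 : 1 ≤ z g s := one_le_z g s
  have hB1 : (1 : ℝ) ≤ C₀ * (1 + Real.log (z g s)) := by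
    have : 0 ≤ Real.log (z g s : ℝ) := Real.log_nonneg (by exact_mod_cast hz1)
    nlinarith
  set B : ℝ := C₀ * (1 + Real.log (z g s)) with hB
  -- a set of primes, cut at `z s`
  have cut : ∀ (S : Finset ℕ) (E : ℝ), (∀ p ∈ S, p.Prime) →
      ∏ p ∈ S.filter (fun p => ¬ p ≤ z g s), (1 - 1 / (p : ℝ))⁻¹ ≤ E →
      ∏ p ∈ S, (1 - 1 / (p : ℝ))⁻¹ ≤ B * E := by
    intro S E hS hE
    rw [← prod_filter_mul_prod_filter_not S (fun p => p ≤ z g s)]
    have h3 := hM (S.filter (fun p => p ≤ z g s)) (z g s) hz1 fun p hp =>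
      ⟨hS p (mem_filter.1 hp).1, (mem_filter.1 hp).2⟩
    have h4 : 0 ≤ ∏ p ∈ S.filter (fun p => ¬ p ≤ z g s), (1 - 1 / (p : ℝ))⁻¹ :=
      prod_nonneg fun p hp => le_trans zero_le_one
        (one_le_inv_factor (hS p (mem_filter.1 hp).1))
    exact mul_le_mul h3 hE h4 (by linarith)
  have f1 : ∏ p ∈ P.filter (fun p => p ∣ cofac q r), (1 - 1 / (p : ℝ))⁻¹ ≤
      B * NT.Gn (rgh (z g s) a) := by
    refine cut _ _ (fun p hp => (hPp p (mem_filter.1 hp).1).1) ?_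
    unfold NT.Gn
    refine prod_le_of_subset (fun p hp => ?_) fun p hp =>
      one_le_inv_factor (Nat.prime_of_mem_primeFactors hp)
    obtain ⟨h3, h4⟩ := mem_filter.1 hp
    obtain ⟨h5, h6⟩ := mem_filter.1 h3
    obtain ⟨h7, h8, h9⟩ := hPp p h5
    rw [e1] at h6
    have h10 : p ∣ a := (h7.dvd_mul.1 h6).resolve_left (not_dvd_M h7 h9)
    exact Nat.mem_primeFactors.2 ⟨h7, dvd_rgh h7 e4.ne' h10 (by omega), (rgh_pos_lk _ _).ne'⟩
  have f2 : ∏ p ∈ Q.filter (fun p => p ∣ cofac r q), (1 - 1 / (p : ℝ))⁻¹ ≤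
      B * NT.Gn (rgh (z g s) b) := by
    refine cut _ _ (fun p hp => (hQp p (mem_filter.1 hp).1).1) ?_
    unfold NT.Gn
    refine prod_le_of_subset (fun p hp => ?_) fun p hp =>
      one_le_inv_factor (Nat.prime_of_mem_primeFactors hp)
    obtain ⟨h3, h4⟩ := mem_filter.1 hp
    obtain ⟨h5, h6⟩ := mem_filter.1 h3
    obtain ⟨h7, h8, h9⟩ := hQp p h5
    rw [e2] at h6
    have h10 : p ∣ b := (h7.dvd_mul.1 h6).resolve_left (not_dvd_M h7 h9)
    exact Nat.mem_primeFactors.2 ⟨h7, dvd_rgh h7 e5.ne' h10 (by omega), (rgh_pos_lk _ _).ne'⟩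
  have f3 : ∏ p ∈ P ∩ Q, (1 - 1 / (p : ℝ))⁻¹ ≤
      B * Real.sqrt ((ro (z g i) q * ro (z g i) r) / (ro (z g s) q * ro (z g s) r)) := by
    refine cut _ _ (fun p hp => (hPp p (mem_inter.1 hp).1).1) ?_
    refine common_le (z_anti g his) (fun p hp => ?_) hq1.1 hr1.1
    obtain ⟨h3, h4⟩ := mem_filter.1 hp
    obtain ⟨h5, h6⟩ := mem_inter.1 h3
    exact ⟨(hPp p h5).1, (hPp p h5).2.1, (hQp p h6).2.1, by omega, (hPp p h5).2.2⟩
  have g1 := one_le_Gn (rgh (z g s) a)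
  have g2 := one_le_Gn (rgh (z g s) b)
  have p2 : 0 ≤ ∏ p ∈ Q.filter (fun p => p ∣ cofac r q), (1 - 1 / (p : ℝ))⁻¹ :=
    prod_nonneg fun p hp => le_trans zero_le_one
      (one_le_inv_factor (hQp p (mem_filter.1 hp).1).1)
  have p3 : 0 ≤ ∏ p ∈ P ∩ Q, (1 - 1 / (p : ℝ))⁻¹ :=
    prod_nonneg fun p hp => le_trans zero_le_one
      (one_le_inv_factor (hPp p (mem_inter.1 hp).1).1)
  calc Kd g δ q r n ≤ Real.exp 353 *
      KD (cofac q r) (cofac r q) P Q (c g q) (c g r) (δ q) (δ r) n := h1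
    _ ≤ Real.exp 353 * (LK g δ (z g i) q r n *
        ((B * NT.Gn (rgh (z g s) a)) * (B * NT.Gn (rgh (z g s) b)) *
        (B * Real.sqrt ((ro (z g i) q * ro (z g i) r) / (ro (z g s) q * ro (z g s) r))))) := by
        refine mul_le_mul_of_nonneg_left (h2.trans ?_) (Real.exp_pos _).le
        exact mul_le_mul_of_nonneg_left
          (mul_le_mul (mul_le_mul f1 f2 p2 (by positivity)) f3 p3 (by positivity)) hL0
    _ = _ := by
        rw [hB]
        ring

/-- **The weighted term with the leak factors.** -/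
theorem term_leakD : ∃ C > 0, ∀ g : Cfg, Real.exp 1 ≤ g.K.P.ρ0 ^ (-g.K.P.c0) → JsOK g.K g.Js →
    g.Js ≤ g.X → g.V ⊆ Icc 1 (N g) → ∀ δ, Om δ → ∀ i s q r n, i ≤ s → q ∈ V1 g → r ∈ V1 g →
    n ∈ Sh g q r → TAj g i q r n → Dl g q r ≤ z g i →
    ∀ U ⊆ Lks g (z g i) q r n, ∀ U' ⊆ Lks g (z g i) r q (-n),
    f g q * f g r / Dl g q r * Kd g δ q r n ≤ C * (1 + Real.log (z g s)) ^ 3 *
      (NT.Gn (rgh (z g s) (rcof (z g i) (N g) (kc g q) q r)) *
        NT.Gn (rgh (z g s) (rcof (z g i) (N g) (kc g q) r q))) *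
      Real.sqrt (ro (z g i) q * ro (z g i) r) * Real.sqrt (ro (z g s) q * ro (z g s) r) *
      ((∏ p ∈ U, δ q p) * ∏ p ∈ U', δ r p) *
      ((f g q / ro (z g s) q) * (f g r / ro (z g s) r) / Dl g q r) := by
  obtain ⟨C, hC, h⟩ := Kd_leakD
  refine ⟨C, hC, ?_⟩
  intro g hρ hJ hX hV δ hδ i s q r n his hq hr hn hT hD U hU U' hU'
  have h1 := h g hρ hJ hX hV δ hδ i s q r n his hq hr hn hT hD
  have hLK := LK_le hδ hU hU'
  have hqV : q ∈ g.V := (mem_filter.1 (mem_filter.1 hq).1).1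
  have hrV : r ∈ g.V := (mem_filter.1 (mem_filter.1 hr).1).1
  have hq1 := mem_Icc.1 (hV hqV)
  have hr1 := mem_Icc.1 (hV hrV)
  have hD0 : 0 < Dl g q r := Dl_pos g hq1.1 hr1.1
  have h2 : 0 ≤ f g q * f g r / Dl g q r :=
    div_nonneg (mul_nonneg (f_nonneg g q) (f_nonneg g r)) hD0.le
  have a1 := ro_pos (z g s) q
  have a2 := ro_pos (z g s) r
  have a3 : 0 < ro (z g s) q * ro (z g s) r := mul_pos a1 a2
  have h3 : Real.sqrt ((ro (z g i) q * ro (z g i) r) / (ro (z g s) q * ro (z g s) r)) =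
      Real.sqrt (ro (z g i) q * ro (z g i) r) * Real.sqrt (ro (z g s) q * ro (z g s) r) /
        (ro (z g s) q * ro (z g s) r) := by
    rw [Real.sqrt_div (mul_nonneg (ro_nonneg _ _) (ro_nonneg _ _))]
    have h4 := Real.sqrt_pos.2 a3
    have h5 := Real.mul_self_sqrt a3.le
    rw [div_eq_div_iff h4.ne' a3.ne']
    nth_rewrite 1 [← h5]
    ring
  have hg1 := one_le_Gn (rgh (z g s) (rcof (z g i) (N g) (kc g q) q r))
  have hg2 := one_le_Gn (rgh (z g s) (rcof (z g i) (N g) (kc g q) r q))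
  have hlog : 0 ≤ Real.log (z g s : ℝ) := Real.log_nonneg (by exact_mod_cast one_le_z g s)
  have hpos : 0 ≤ C * (1 + Real.log (z g s)) ^ 3 *
      (NT.Gn (rgh (z g s) (rcof (z g i) (N g) (kc g q) q r)) *
        NT.Gn (rgh (z g s) (rcof (z g i) (N g) (kc g q) r q))) *
      Real.sqrt ((ro (z g i) q * ro (z g i) r) / (ro (z g s) q * ro (z g s) r)) := by
    positivity
  calc f g q * f g r / Dl g q r * Kd g δ q r n ≤ f g q * f g r / Dl g q r *
      (C * (1 + Real.log (z g s)) ^ 3 *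
      (NT.Gn (rgh (z g s) (rcof (z g i) (N g) (kc g q) q r)) *
        NT.Gn (rgh (z g s) (rcof (z g i) (N g) (kc g q) r q))) *
      Real.sqrt ((ro (z g i) q * ro (z g i) r) / (ro (z g s) q * ro (z g s) r)) *
      ((∏ p ∈ U, δ q p) * ∏ p ∈ U', δ r p)) :=
        mul_le_mul_of_nonneg_left (h1.trans (mul_le_mul_of_nonneg_left hLK hpos)) h2
    _ = _ := by
        rw [h3]
        field_simp

end Vale.P028.SK
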