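import Vale.Agent.P028.MathlibUsed
import Vale.Agent.P028.FQ.SkTop
import Vale.Agent.P028.H383.BN
import Vale.Agent.P028.FQ.BF
import Vale.Agent.P028.H359.BU
import Vale.Agent.P028.R226.BT
import Vale.Agent.P028.CR.Top
attribute [-instance] ProperSMul.toContinuousSMul IsTopologicalTorsor.toContinuousSMul IdemSemiring.toCanonicallyOrderedAdd IdemSemiring.toMulLeftMono IdemSemiring.toMulRightMono AddQuantale.instAddLeftMono AddQuantale.instAddRightMono Quantale.instMulLeftMono Quantale.instMulRightMono FiniteDimensional.rclike_to_real IsScalarTower.complexToReal FiniteDimensional.complexToReal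

/-!
# The skeleton: block M implies the second moment statement and the first question
-/

namespace Vale.P028.SK

open Finset CF

/-- **Block M implies the second moment statement** (the blocks N, F, U, T are proved). -/
theorem momentC_of_BM {γ : ℝ} (h : BM γ) : MomentC γ :=
  momentC_of_five (bn γ) (blockF γ) (bU γ) (bt γ) h

/-- **Block M implies the full first question.** -/
theorem q1_of_BM {γ : ℝ} (h : BM γ) (ψ : ℕ → ℝ) (hψ : ∀ q, 0 ≤ ψ q)
    (hdiv : ¬ Summable (fun q : ℕ => ((q.totient : ℝ) / q) * ψ q)) :
    MeasureTheory.volume (Vale.P028.W γ ψ)ᶜ = 0 :=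
  CR.q1_of_momentC (momentC_of_BM h) ψ hψ hdiv

end Vale.P028.SK
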